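import Vale.Agent.Lib.P330.Half

open Vale.Agent.Lib.P330 in
open Classical in
/-- For every generalized circuit and every `ε > 0` there is an assignment `y` with values in
`[0,1]`, each value being `0`, `1/2`, `1` or the constant of the constant gate with that output,
such that every gate is `ε`-satisfied by the all-zero assignment or by `y`; hence one of these
two assignments `ε`-satisfies at least half of the gates. -/
theorem Vale.Agent.Results.P330.HalfCover.result :
    ∀ (V : Type) [Fintype V] (G : GCircuit V) (ε : ℚ), 0 < ε →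
      ∃ y : V → ℚ,
        (∀ v, 0 ≤ y v ∧ y v ≤ 1) ∧
        (∀ v, y v = 0 ∨ y v = 1 / 2 ∨ y v = 1 ∨ ∃ α, Gate.const α v ∈ G.gates ∧ y v = α) ∧
        (∀ g ∈ G.gates, g.Sat ε (fun _ => 0) ∨ g.Sat ε y) ∧
        (G.gates.card ≤ 2 * (G.gates.filter (fun g => g.Sat ε (fun _ => 0))).card ∨
          G.gates.card ≤ 2 * (G.gates.filter (fun g => g.Sat ε y)).card) :=
  fun _ _ G ε hε => exists_half_unit G ε hε
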