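import Vale.Agent.Lib.P330.Quarter

open Vale.Agent.Lib.P330 in
/-- For `1/4 ≤ ε ≤ 1/2`, iterating the explicit synchronous local update `GCircuit.step` at
least `|V|` times, starting from the constant assignment `1/2`, gives an assignment with values
in `[0,1]` that `ε`-satisfies every gate of the generalized circuit; for `ε ≥ 1/2` the constant
assignment `1/2` itself `ε`-satisfies every gate. -/
theorem Vale.Agent.Results.P330.QuarterEasy.result :
    ∀ (V : Type) [Fintype V] (G : GCircuit V) (ε : ℚ),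
      (1 / 4 ≤ ε → ε ≤ 1 / 2 → ∀ t : ℕ, Fintype.card V ≤ t →
        (∀ v, 0 ≤ ((G.step ε)^[t] (fun _ => 1 / 2)) v ∧ ((G.step ε)^[t] (fun _ => 1 / 2)) v ≤ 1) ∧
          ∀ g ∈ G.gates, g.Sat ε ((G.step ε)^[t] (fun _ => 1 / 2))) ∧
      (1 / 2 ≤ ε → ∀ g ∈ G.gates, g.Sat ε (fun _ => 1 / 2)) :=
  fun _ _ G ε => ⟨fun h1 h2 t ht => quarter G ε h1 h2 t ht,
    fun h g hg => half_const ε h g (G.param_ok g hg)⟩
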